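import Vale.Agent.P052.AllDim

/-!
# P052: Borsuk's conjecture fails in every dimension `d ≥ 63`, by explicit finite sets

`b(Y)`, `b(d)` and the least counterexample dimension `d*` are defined as in the problem.  For every
`d ≥ 63` there is a set `Y` of `d + 258` points of Euclidean `d`-space with `b(Y) ≥ d + 2`.
-/

namespace Vale.Agent.Results.P052.AllDimensions

/-- `Y` is a union of `k` subsets, each of diameter strictly smaller than the diameter of `Y`. -/
def Coverable {d : ℕ} (Y : Set (EuclideanSpace ℝ (Fin d))) (k : ℕ) : Prop :=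
  ∃ P : Fin k → Set (EuclideanSpace ℝ (Fin d)),
    (⋃ i, P i) = Y ∧ ∀ i, Metric.diam (P i) < Metric.diam Y

/-- `b(Y)`: the least integer `k` such that `Y` is a union of `k` subsets, each of diameter
strictly smaller than the diameter of `Y` (`⊤` if there were none). -/
noncomputable def bSet {d : ℕ} (Y : Set (EuclideanSpace ℝ (Fin d))) : ℕ∞ :=
  ⨅ (k : ℕ) (_ : Coverable Y k), (k : ℕ∞)

/-- `b(d)`: the supremum of `b(Y)` over all bounded subsets `Y` of positive diameter of Euclidean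
`d`-space. -/
noncomputable def bDim (d : ℕ) : ℕ∞ :=
  ⨆ (Y : Set (EuclideanSpace ℝ (Fin d))) (_ : Bornology.IsBounded Y) (_ : 0 < Metric.diam Y),
    bSet Y

/-- the dimensions `d ≥ 1` in which some bounded set of positive diameter needs more than `d + 1`
pieces -/
def counterDims : Set ℕ := {d : ℕ | 1 ≤ d ∧ (d : ℕ∞) + 1 < bDim d}

/-- `d*`: the least dimension in which Borsuk's conjecture fails. -/
noncomputable def dStar : ℕ := sInf counterDims

theorem exists_finset (k : ℕ) : ∃ Y : Finset (EuclideanSpace ℝ (Fin (63 + k))),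
    Y.card = (63 + k) + 258 ∧ 0 < Metric.diam (Y : Set (EuclideanSpace ℝ (Fin (63 + k)))) ∧
    (((63 + k : ℕ) : ℕ∞) + 2 ≤ bSet (Y : Set (EuclideanSpace ℝ (Fin (63 + k))))) := by
  classical
  refine ⟨Finset.univ.map ⟨P052.AD.Q k, P052.AD.Q_inj k⟩, ?_, ?_, ?_⟩
  · rw [Finset.card_map, Finset.card_univ, Fintype.card_sum, Fintype.card_fin, Fintype.card_fin]
    omega
  · have h : ((Finset.univ.map ⟨P052.AD.Q k, P052.AD.Q_inj k⟩ :
        Finset (EuclideanSpace ℝ (Fin (63 + k)))) : Set (EuclideanSpace ℝ (Fin (63 + k)))) =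
        Set.range (P052.AD.Q k) := by simp
    rw [h]
    exact P052.AD.diam_pos k
  · have h : ((Finset.univ.map ⟨P052.AD.Q k, P052.AD.Q_inj k⟩ :
        Finset (EuclideanSpace ℝ (Fin (63 + k)))) : Set (EuclideanSpace ℝ (Fin (63 + k)))) =
        Set.range (P052.AD.Q k) := by simp
    rw [h]
    unfold bSet
    refine le_iInf fun m => le_iInf fun hm => ?_
    obtain ⟨P, hP, hd⟩ := hm
    have h1 := P052.AD.le_of_cover k m P hP hd
    have h2 : ((63 + k : ℕ) : ℕ∞) + 2 = ((65 + k : ℕ) : ℕ∞) := by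
      have h3 : (2 : ℕ∞) = ((2 : ℕ) : ℕ∞) := by norm_num
      rw [h3, ← Nat.cast_add]
      congr 1
      omega
    rw [h2]
    exact_mod_cast h1

theorem le_bDim (d : ℕ) (hd : 63 ≤ d) : (d : ℕ∞) + 2 ≤ bDim d := by
  obtain ⟨k, rfl⟩ := Nat.exists_eq_add_of_le hd
  obtain ⟨Y, -, h1, h2⟩ := exists_finset k
  refine le_trans h2 ?_
  unfold bDim
  exact le_iSup_of_le (Y : Set (EuclideanSpace ℝ (Fin (63 + k))))
    (le_iSup_of_le Y.finite_toSet.isBounded (le_iSup_of_le h1 le_rfl))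

theorem lt_bDim (d : ℕ) (hd : 63 ≤ d) : (d : ℕ∞) + 1 < bDim d := by
  refine lt_of_lt_of_le ?_ (le_bDim d hd)
  have h1 : (d : ℕ∞) + 1 = ((d + 1 : ℕ) : ℕ∞) := by norm_num
  have h2 : (d : ℕ∞) + 2 = ((d + 2 : ℕ) : ℕ∞) := by norm_num
  rw [h1, h2]
  exact_mod_cast (by omega : d + 1 < d + 2)

/-- (1) `b(63) ≥ 65`: Borsuk's conjecture `b(63) ≤ 64` is false; (2) for every `d ≥ 63` there is a
finite set `Y` of `d + 258` points in Euclidean `d`-space, of positive diameter, with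
`b(Y) ≥ d + 2`; (3) hence `b(d) ≥ d + 2` for all `d ≥ 63`; (4) every `d ≥ 63` is a counterexample
dimension, and the least counterexample dimension `d*` satisfies `d* ≤ 63`. -/
theorem result :
    65 ≤ bDim 63 ∧
    (∀ d : ℕ, 63 ≤ d → ∃ Y : Finset (EuclideanSpace ℝ (Fin d)),
      Y.card = d + 258 ∧ 0 < Metric.diam (Y : Set (EuclideanSpace ℝ (Fin d))) ∧
      (d : ℕ∞) + 2 ≤ bSet (Y : Set (EuclideanSpace ℝ (Fin d)))) ∧
    (∀ d : ℕ, 63 ≤ d → (d : ℕ∞) + 2 ≤ bDim d) ∧
    (∀ d : ℕ, 63 ≤ d → d ∈ counterDims) ∧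
    dStar ∈ counterDims ∧ dStar ≤ 63 := by
  have h63 : 63 ∈ counterDims := ⟨by norm_num, lt_bDim 63 le_rfl⟩
  refine ⟨?_, ?_, le_bDim, fun d hd => ⟨by omega, lt_bDim d hd⟩, Nat.sInf_mem ⟨63, h63⟩,
    Nat.sInf_le h63⟩
  · have h := le_bDim 63 le_rfl
    have h1 : ((63 : ℕ) : ℕ∞) + 2 = (65 : ℕ∞) := by norm_num
    rw [← h1]
    exact h
  · intro d hd
    obtain ⟨k, rfl⟩ := Nat.exists_eq_add_of_le hd
    exact exists_finset k

end Vale.Agent.Results.P052.AllDimensions
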