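import Vale.Agent.P052.Main

namespace Vale.Agent.Results.P052.Dim63

open Vale.Agent.P052

/-- Borsuk's conjecture fails in dimension 63. -/
theorem result : ¬ BorsukConjecture 63 := not_borsuk_63

end Vale.Agent.Results.P052.Dim63
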